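import Vale.Agent.P214.NGP.Cyl

/-!
# P214, block NGP: the path lemma at a non compensated point, two dimensional form

`NGP.growth`: `m = 2`; from a bottom scale `tb` at which the (θ-weighted) second moment of the
heights about `c` is at most `R₀ g(t₀)`, and if `∫_{t₀}^{t₁} min(1, X_-) dt/t ≤ B`, then
`g(t₀) (t₁/t₀)^{1/(C R₀)} ≤ C max (a(t₁)) (g(t₁))`.
-/

open Set Filter Topology MeasureTheory Metric
open scoped RealInnerProductSpace

set_option linter.all false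

namespace Vale.Agent.P214.NGP

open Vale.Agent.P214.FV Vale.Agent.P214.ODE

variable {E : Type*} [NormedAddCommGroup E] [InnerProductSpace ℝ E] [FiniteDimensional ℝ E]
  [MeasurableSpace E] [BorelSpace E]

variable {T : Submodule ℝ E} {G : Set E} {h : ℝ} {ν : Measure E} {P : E → E →L[ℝ] E}
  {x c : E} {k k' K : ℝ → ℝ}

/-- from `tb` to `t₀`: `H(t₀) ≤ H(tb) + 2 log(t₀/tb) g(t₀) + 2 ε g(t₀)` (dimension two) -/
lemma bottom {g b H : ℝ → ℝ} {tb t₀ ε : ℝ} (ht0 : 0 < tb) (h01 : tb ≤ t₀) (hε : 0 ≤ ε)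
    (hH : ∀ t ∈ Icc tb t₀, ∃ D, HasDerivAt H D t ∧ t * D ≤ 2 * g t + 2 * ε * b t)
    (hg : ∀ t ∈ Icc tb t₀, ∃ D, HasDerivAt g D t ∧ b t ≤ t * D)
    (hb : ∀ t ∈ Icc tb t₀, 0 ≤ b t) (hg0 : 0 ≤ g tb) :
    H t₀ ≤ H tb + 2 * g t₀ * Real.log (t₀ / tb) + 2 * ε * g t₀ := by
  have cg : ContinuousOn g (Icc tb t₀) := fun t ht => by
    obtain ⟨D, hD, -⟩ := hg t ht
    exact hD.continuousAt.continuousWithinAt
  have cH : ContinuousOn H (Icc tb t₀) := fun t ht => by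
    obtain ⟨D, hD, -⟩ := hH t ht
    exact hD.continuousAt.continuousWithinAt
  -- `g` is monotone
  have hgm : MonotoneOn g (Icc tb t₀) := by
    refine monotoneOn_of_deriv_nonneg (convex_Icc _ _) cg ?_ ?_
    · intro t ht
      rw [interior_Icc] at ht
      obtain ⟨D, hD, -⟩ := hg t ⟨ht.1.le, ht.2.le⟩
      exact hD.differentiableAt.differentiableWithinAt
    · intro t ht
      rw [interior_Icc] at ht
      have ht' : t ∈ Icc tb t₀ := ⟨ht.1.le, ht.2.le⟩
      obtain ⟨D, hD, hD'⟩ := hg t ht'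
      rw [hD.deriv]
      have hb := hb t ht'
      have htp : 0 < t := ht0.trans ht.1
      by_contra hcon
      have : t * D < 0 := mul_neg_of_pos_of_neg htp (not_le.1 hcon)
      linarith
  set Φ : ℝ → ℝ := fun t => H t - 2 * g t₀ * Real.log (t / tb) - 2 * ε * g t with hΦ
  have hanti : AntitoneOn Φ (Icc tb t₀) := by
    refine antitoneOn_of_deriv_nonpos (convex_Icc _ _) ?_ ?_ ?_
    · refine (cH.sub (continuousOn_const.mul ?_)).sub (continuousOn_const.mul cg)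
      refine ContinuousOn.log (continuousOn_id.div_const _) fun t ht => ?_
      exact (div_pos (ht0.trans_le ht.1) ht0).ne'
    · intro t ht
      rw [interior_Icc] at ht
      have ht' : t ∈ Icc tb t₀ := ⟨ht.1.le, ht.2.le⟩
      obtain ⟨D, hD, -⟩ := hg t ht'
      obtain ⟨DH, hDH, -⟩ := hH t ht'
      have hl : DifferentiableAt ℝ (fun t => Real.log (t / tb)) t := by
        refine DifferentiableAt.log (differentiableAt_id.div_const _) ?_
        exact (div_pos (ht0.trans ht.1) ht0).ne'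
      exact (((hDH.differentiableAt.sub (hl.const_mul _)).sub
        (hD.differentiableAt.const_mul _))).differentiableWithinAt
    · intro t ht
      rw [interior_Icc] at ht
      have ht' : t ∈ Icc tb t₀ := ⟨ht.1.le, ht.2.le⟩
      have htp : 0 < t := ht0.trans ht.1
      obtain ⟨D, hD, hD'⟩ := hg t ht'
      obtain ⟨DH, hDH, hDH'⟩ := hH t ht'
      have hl : HasDerivAt (fun t => Real.log (t / tb)) (t⁻¹) t := by
        have h3 : HasDerivAt (fun t : ℝ => t / tb) (1 / tb) t := (hasDerivAt_id t).div_const tb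
        have h4 := h3.log (div_pos htp ht0).ne'
        refine h4.congr_deriv ?_
        field_simp
      have hΦd : HasDerivAt Φ (DH - 2 * g t₀ * t⁻¹ - 2 * ε * D) t :=
        (hDH.sub (hl.const_mul _)).sub (hD.const_mul _)
      rw [hΦd.deriv]
      have e1 : DH - 2 * g t₀ * t⁻¹ - 2 * ε * D = t⁻¹ * (t * DH - 2 * g t₀ - 2 * ε * (t * D)) := by
        field_simp
      rw [e1]
      refine mul_nonpos_of_nonneg_of_nonpos (inv_pos.2 htp).le ?_
      have h5 : g t ≤ g t₀ := hgm ht' ⟨h01, le_rfl⟩ ht.2.le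
      have h6 : ε * b t ≤ ε * (t * D) := mul_le_mul_of_nonneg_left hD' hε
      linarith
  have h1 := hanti ⟨le_rfl, h01⟩ ⟨h01, le_rfl⟩ h01
  have h2 : Φ tb = H tb - 2 * ε * g tb := by
    simp only [hΦ, div_self ht0.ne', Real.log_one]; ring
  have h3 : Φ t₀ = H t₀ - 2 * g t₀ * Real.log (t₀ / tb) - 2 * ε * g t₀ := rfl
  rw [h2, h3] at h1
  have h4 : 0 ≤ ε * g tb := mul_nonneg hε hg0
  linarith

/-- restriction of the path data to a smaller interval -/
lemma PathData.sub {a g b H : ℝ → ℝ} {t₀ t₁ s₀ s₁ μ ε : ℝ} (hd : PathData a g b H t₀ t₁ μ ε)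
    (h0 : t₀ ≤ s₀) (h1 : s₁ ≤ t₁) : PathData a g b H s₀ s₁ μ ε where
  ht₀ := hd.ht₀.trans_le h0
  hμ := hd.hμ
  hε := hd.hε
  hε1 := hd.hε1
  ha := fun t ht => hd.ha t ⟨h0.trans ht.1, ht.2.trans h1⟩
  hH := fun t ht => hd.hH t ⟨h0.trans ht.1, ht.2.trans h1⟩
  hg := fun t ht => hd.hg t ⟨h0.trans ht.1, ht.2.trans h1⟩
  hcs := fun t ht => hd.hcs t ⟨h0.trans ht.1, ht.2.trans h1⟩
  hb := fun t ht => hd.hb t ⟨h0.trans ht.1, ht.2.trans h1⟩
  hg0 := fun t ht => hd.hg0 t ⟨h0.trans ht.1, ht.2.trans h1⟩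

/-- the numbers: growth from the core -/
lemma PathData.growth_two {a g b H : ℝ → ℝ} {t₀ t₁ ε B R₀ : ℝ}
    (hd : PathData a g b H t₀ t₁ 0 ε) (h01 : t₀ ≤ t₁) (hR : 1 ≤ R₀) (hH : H t₀ ≤ 4 * R₀ * g t₀)
    (hB : If a g t₀ t₁ ≤ B) (hlen : ε * Real.log (t₁ / t₀) ≤ 1) :
    g t₀ * (t₁ / t₀) ^ (1 / (18 * Real.exp (8 * B + 9) * R₀))
      ≤ 2 * Real.exp (4 * B) * max (a t₁) (g t₁) := by
  have hA0 : g t₀ / 2 ≤ max (a t₀) (g t₀ / 2) := le_max_right _ _
  have hg0 : 0 < g t₀ := hd.hg0 t₀ ⟨le_rfl, h01⟩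
  have h1 := (path_core hd (R₀ := 8 * R₀) (by linarith) (by nlinarith) hB hlen t₁
    ⟨h01, le_rfl⟩).2
  have hlog : 0 ≤ Real.log (t₁ / t₀) := log_ratio_nonneg hd.ht₀ h01
  set e := Real.exp (8 * B + 9) with he
  have he0 : 0 < e := Real.exp_pos _
  have e8 : Real.exp ((8 + 2 * (0:ℝ)) * B + 9) = e := by rw [he]; norm_num
  have e4 : Real.exp ((4 + 2 * (0:ℝ)) * B) = Real.exp (4 * B) := by norm_num
  rw [e8, e4] at h1
  have h2 : 1 / (18 * e * R₀) ≤ 1 / (2 * ((8 * R₀ + 1) * e)) := by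
    refine one_div_le_one_div_of_le (by positivity) ?_
    nlinarith [mul_nonneg he0.le (sub_nonneg.2 hR)]
  have hpos : 0 < t₁ / t₀ := div_pos (hd.ht₀.trans_le h01) hd.ht₀
  have h3 : (t₁ / t₀) ^ (1 / (18 * e * R₀))
      ≤ Real.exp (1 / (2 * ((8 * R₀ + 1) * e)) * Real.log (t₁ / t₀)) := by
    rw [Real.rpow_def_of_pos hpos]
    refine Real.exp_le_exp.2 ?_
    rw [mul_comm]
    exact mul_le_mul_of_nonneg_right h2 hlog
  have h4 : g t₀ / 2 * (t₁ / t₀) ^ (1 / (18 * e * R₀))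
      ≤ Real.exp (4 * B) * max (a t₁) (g t₁ / 2) := by
    refine le_trans ?_ h1
    exact mul_le_mul hA0 h3 (Real.rpow_nonneg hpos.le _) ((half_pos hg0).le.trans hA0)
  have hg1 : 0 < g t₁ := hd.hg0 t₁ ⟨h01, le_rfl⟩
  have h5 : max (a t₁) (g t₁ / 2) ≤ max (a t₁) (g t₁) := max_le_max le_rfl (by linarith)
  have h6 := mul_le_mul_of_nonneg_left h5 (Real.exp_pos (4 * B)).le
  linarith

/-- the second moment at the bottom from a height bound and a mass bound -/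
lemma hgtTh_le {m : ℕ} (hC : CylStat m T G h ν P) (hk : Kern k k' K) {Ck : ℝ}
    (hCk : ∀ s, 0 ≤ s → k s ≤ Ck) (hCk0 : 0 ≤ Ck) {t S M : ℝ} (ht : 0 < t) (hS0 : 0 ≤ S)
    (hS : ∀ᵐ y ∂ν, bsq T x y < t ^ 2 → ‖hgt T c y‖ ^ 2 ≤ S)
    (hM : ν.real (QP.bset T x t) ≤ M * t ^ m) :
    2 * hgtTh m T x k (hsq T c) P ν t ≤ Ck * S * M := by
  haveI := hC.fin
  have hpl := CylStat.plane hC
  unfold hgtTh
  have h1 : ∫ y, k (bsq T x y / t ^ 2) * (hsq T c y * theta T P x y) ∂ν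
      ≤ ∫ y, (QP.bset T x t).indicator (fun _ => Ck * (S / 2)) y ∂ν := by
    refine integral_mono_of_nonneg ?_ ?_ ?_
    · filter_upwards [hpl.theta_mem (T := T) (z := x)] with y hy
      have : 0 ≤ hsq T c y := by unfold hsq; positivity
      exact mul_nonneg (hk.nonneg _) (mul_nonneg this hy.1)
    · exact (integrable_const _).indicator (QP.measurableSet_bset T x t)
    · filter_upwards [hS, hpl.theta_mem (T := T) (z := x)] with y hy hth
      by_cases hlt : bsq T x y < t ^ 2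
      · have hmem : y ∈ QP.bset T x t := hlt
        rw [indicator_of_mem hmem]
        have h2 := hy hlt
        have h3 : 0 ≤ bsq T x y / t ^ 2 := div_nonneg (bsq_nonneg T x y) (by positivity)
        have h4 : hsq T c y * theta T P x y ≤ S / 2 := by
          have h5 : hsq T c y ≤ S / 2 := by unfold hsq; linarith
          have h6 : 0 ≤ hsq T c y := by unfold hsq; positivity
          calc hsq T c y * theta T P x y ≤ hsq T c y * 1 :=
                mul_le_mul_of_nonneg_left hth.2 h6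
            _ ≤ S / 2 := by linarith
        have h7 : 0 ≤ hsq T c y * theta T P x y :=
          mul_nonneg (by unfold hsq; positivity) hth.1
        exact mul_le_mul (hCk _ h3) h4 h7 hCk0
      · have hnm : y ∉ QP.bset T x t := hlt
        rw [indicator_of_notMem hnm]
        have h3 : k (bsq T x y / t ^ 2) = 0 := by
          refine hk.pk.zero _ ?_
          rw [one_le_div (by positivity)]
          exact not_lt.1 hlt
        rw [h3, zero_mul]
  rw [integral_indicator_const _ (QP.measurableSet_bset T x t), smul_eq_mul] at h1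
  have h8 : t ^ (-(m : ℤ)) * (ν.real (QP.bset T x t) * (Ck * (S / 2)))
      ≤ t ^ (-(m : ℤ)) * ((M * t ^ m) * (Ck * (S / 2))) := by
    have : 0 ≤ Ck * (S / 2) := by positivity
    have h9 : 0 ≤ t ^ (-(m : ℤ)) := zpow_nonneg ht.le _
    gcongr
  have h10 : t ^ (-(m : ℤ)) * ((M * t ^ m) * (Ck * (S / 2))) = M * (Ck * (S / 2)) := by
    have : t ^ (-(m : ℤ)) * t ^ m = 1 := by
      rw [zpow_neg, zpow_natCast]; field_simp
    calc t ^ (-(m : ℤ)) * ((M * t ^ m) * (Ck * (S / 2)))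
        = (t ^ (-(m : ℤ)) * t ^ m) * (M * (Ck * (S / 2))) := by ring
      _ = _ := by rw [this, one_mul]
  have h11 := mul_le_mul_of_nonneg_left h1 (zpow_nonneg ht.le (-(m : ℤ)))
  linarith

/-- **The path lemma at a non compensated point** (`m = 2`).  `cc` is the mass constant. -/
theorem growth (hk : Kern k k' K) (hk0 : ∀ s, s ≤ 1 / 4 → k s = 0) (B : ℝ) (hB : 0 ≤ B) :
    ∃ C : ℝ, 1 ≤ C ∧ ∀ (T : Submodule ℝ E) (G : Set E) (h : ℝ) (ν : Measure E)
      (P : E → E →L[ℝ] E) (x c : E) (cc tb t₀ t₁ R η R₀ : ℝ), CylStat 2 T G h ν P → c ∈ Tᗮ →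
      0 < tb → tb ≤ t₀ → t₀ ≤ t₁ → t₁ < R → BallIn T G x R → 0 ≤ η →
      (∀ᵐ y ∂ν, bsq T x y < t₁ ^ 2 → ‖hgt T c y‖ ^ 2 ≤ η * tb ^ 2) →
      η * (C + Real.log (t₁ / tb)) ≤ 1 / C → 1 ≤ R₀ → Real.log (t₀ / tb) ≤ R₀ →
      2 * hgtTh 2 T x k (hsq T c) P ν tb ≤ R₀ * tiltK 2 T x K P ν t₀ →
      0 < tiltK 2 T x K P ν t₀ →
      (∫ t in t₀..t₁, Yf (aK 2 T x K ν cc) (tiltK 2 T x K P ν) t / t) ≤ B →
      tiltK 2 T x K P ν t₀ * (t₁ / t₀) ^ (1 / (C * R₀))
        ≤ C * max (aK 2 T x K ν cc t₁) (tiltK 2 T x K P ν t₁) := by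
  set e := Real.exp (8 * B + 9) with he
  have he1 : 1 ≤ e := Real.one_le_exp (by positivity)
  refine ⟨18 * e, by linarith, ?_⟩
  intro T G h ν P x c cc tb t₀ t₁ R η R₀ hC hc htb h0 h01 hR hG hη hsup hηC hR0 hlogR hHb hgt₀ hNG
  have ht₀ : 0 < t₀ := htb.trans_le h0
  have ht₁ : 0 < t₁ := ht₀.trans_le h01
  have hl1 : 0 ≤ Real.log (t₁ / tb) := log_ratio_nonneg htb (h0.trans h01)
  -- the small parameter
  have hC0 : 0 < 18 * e := by linarith
  have hη1 : η * (18 * e) ≤ 1 / (18 * e) := by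
    refine le_trans ?_ hηC
    nlinarith [mul_nonneg hη hl1]
  have hη2 : η * Real.log (t₁ / tb) ≤ 1 / (18 * e) := by
    refine le_trans ?_ hηC
    nlinarith [mul_nonneg hη hC0.le]
  have h18 : 1 / (18 * e) ≤ 1 / 18 := one_div_le_one_div_of_le (by norm_num) (by linarith)
  have hη3 : η ≤ 1 / 324 := by
    have : η * 18 ≤ η * (18 * e) := by nlinarith
    linarith
  set δ : ℝ := 1 / (8 * (1 + Real.log (t₁ / tb))) with hδ
  have hδ0 : 0 < δ := by rw [hδ]; positivity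
  have hδ8 : δ ≤ 1 / 8 := by
    rw [hδ]; exact one_div_le_one_div_of_le (by norm_num) (by linarith)
  have hδl : δ * Real.log (t₁ / tb) ≤ 1 / 8 := by
    rw [hδ, div_mul_eq_mul_div, div_le_div_iff₀ (by positivity) (by norm_num)]
    linarith
  set ε := 4 * η + δ with hε
  have hε0 : 0 < ε := by positivity
  have hε4 : ε ≤ 1 / 4 := by rw [hε]; linarith
  have hsup' : ∀ t, tb ≤ t → t ≤ t₁ →
      ∀ᵐ y ∂ν, bsq T x y < t ^ 2 → 2 * (2:ℕ) * ‖hgt T c y‖ ^ 2 ≤ ε * t ^ 2 := by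
    intro t h1 h2
    have htp : 0 < t := htb.trans_le h1
    filter_upwards [hsup] with y hy hlt
    have h3 := hy (hlt.trans_le (by gcongr))
    have h4 : η * tb ^ 2 ≤ η * t ^ 2 := by gcongr
    have h5 : 4 * η * t ^ 2 ≤ ε * t ^ 2 := by
      refine mul_le_mul_of_nonneg_right ?_ (by positivity)
      rw [hε]; linarith
    push_cast
    linarith
  have hd : PathData (aK 2 T x K ν cc) (tiltK 2 T x K P ν) (radK 2 T x k P ν)
      (fun t => 2 * hgtTh 2 T x k (hsq T c) P ν t) t₀ t₁ 0 ε :=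
    CylStat.pathData hC hk hk0 (by norm_num) hc cc ht₀ hR hG hε0 hε4
      (fun t ht => hsup' t (h0.trans ht.1) ht.2) hgt₀ le_rfl (by norm_num)
  have hbot := bottom (g := tiltK 2 T x K P ν) (b := radK 2 T x k P ν)
    (H := fun t => 2 * hgtTh 2 T x k (hsq T c) P ν t) (ε := ε) htb h0 hε0.le
    (fun t ht => CylStat.H_deriv hC hk hk0 (by norm_num) hc (htb.trans_le ht.1)
      ((ht.2.trans h01).trans_lt hR) hG hε0.le (hsup' t ht.1 (ht.2.trans h01)))
    (fun t ht => by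
      obtain ⟨D, hD, hD'⟩ := CylStat.tiltK_deriv (z := x) hC hk (htb.trans_le ht.1)
      refine ⟨D, hD, ?_⟩
      have e0 : ((2:ℕ) : ℝ) - 2 = 0 := by norm_num
      rw [e0] at hD'
      linarith)
    (fun t ht => CylStat.radK_nonneg hk (htb.trans_le ht.1))
    (CylStat.tiltK_nonneg hC hk htb)
  have hH0 : 2 * hgtTh 2 T x k (hsq T c) P ν t₀ ≤ 4 * R₀ * tiltK 2 T x K P ν t₀ := by
    have h1 : 2 * hgtTh 2 T x k (hsq T c) P ν t₀ ≤ 2 * hgtTh 2 T x k (hsq T c) P ν tb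
        + 2 * tiltK 2 T x K P ν t₀ * Real.log (t₀ / tb) + 2 * ε * tiltK 2 T x K P ν t₀ := hbot
    have h2 : tiltK 2 T x K P ν t₀ * Real.log (t₀ / tb) ≤ tiltK 2 T x K P ν t₀ * R₀ :=
      mul_le_mul_of_nonneg_left hlogR hgt₀.le
    have h3 : 2 * ε * tiltK 2 T x K P ν t₀ ≤ R₀ * tiltK 2 T x K P ν t₀ := by
      refine mul_le_mul_of_nonneg_right ?_ hgt₀.le
      linarith
    linarith
  have hlen : ε * Real.log (t₁ / t₀) ≤ 1 := by
    have h1 : Real.log (t₁ / t₀) ≤ Real.log (t₁ / tb) := by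
      refine Real.log_le_log (div_pos ht₁ ht₀) ?_
      exact div_le_div_of_nonneg_left ht₁.le htb h0
    have h2 : ε * Real.log (t₁ / t₀) ≤ ε * Real.log (t₁ / tb) :=
      mul_le_mul_of_nonneg_left h1 hε0.le
    have h3 : ε * Real.log (t₁ / tb) = 4 * (η * Real.log (t₁ / tb)) + δ * Real.log (t₁ / tb) := by
      rw [hε]; ring
    linarith
  have hfin := PathData.growth_two hd h01 hR0 hH0 hNG hlen
  refine hfin.trans ?_
  have hmx : 0 ≤ max (aK 2 T x K ν cc t₁) (tiltK 2 T x K P ν t₁) :=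
    (CylStat.tiltK_nonneg hC hk ht₁).trans (le_max_right _ _)
  refine mul_le_mul_of_nonneg_right ?_ hmx
  have h4 : Real.exp (4 * B) ≤ e := by
    rw [he]; exact Real.exp_le_exp.2 (by linarith)
  linarith

end Vale.Agent.P214.NGP
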