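import Vale.Agent.P214.NGP.Core
import Vale.Agent.P214.ODE.Theta
import Vale.Agent.P214.TH.Bump
import Vale.Agent.P214.QP.Mean
import Vale.Agent.P214.FV.Soft

/-!
# P214, block NGP: the path lemma over `CylStat`

Kernel pair `kk = -2 win'`, `TH.win` (smooth, `= 1` on `[0, 1/4]`, `= 0` on `[1, ∞)`).
-/

open Set Filter Topology MeasureTheory Metric
open scoped RealInnerProductSpace

set_option linter.all false

namespace Vale.Agent.P214.NGP

open Vale.Agent.P214.FV Vale.Agent.P214.ODE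

/-! ### the kernel -/

/-- `k = -2 win'` -/
noncomputable def kk (s : ℝ) : ℝ := -2 * deriv TH.win s

/-- `k' = -2 win''` -/
noncomputable def kk' (s : ℝ) : ℝ := -2 * deriv (deriv TH.win) s

lemma win_antitone : Antitone TH.win := by
  intro s t hst
  unfold TH.win
  exact Real.smoothTransition.monotone (by linarith)

lemma deriv_win_nonpos (s : ℝ) : deriv TH.win s ≤ 0 := win_antitone.deriv_nonpos

lemma kk_nonneg (s : ℝ) : 0 ≤ kk s := by
  unfold kk; linarith [deriv_win_nonpos s]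

theorem kernW : Kern kk kk' TH.win where
  pk := by
    refine ⟨fun s => (TH.profile_dwin.der s).const_mul (-2), ?_, fun s hs => ?_⟩
    · exact continuous_const.mul TH.profile_dwin.cont
    · unfold kk; rw [TH.profile_dwin.zero s hs, mul_zero]
  pK := by
    refine ⟨fun s => ?_, ?_, TH.profile_win.zero⟩
    · have := TH.profile_win.der s
      refine this.congr_deriv ?_
      unfold kk; ring
    · unfold kk
      exact ((continuous_const.mul TH.profile_win.cont).neg).div_const 2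
  nonneg := kk_nonneg

lemma kk_zero (s : ℝ) (hs : s ≤ 1 / 4) : kk s = 0 := by
  -- `win = 1` on `(-∞, 1/4]`
  have h1 : HasDerivWithinAt TH.win (deriv TH.win s) (Iic s) s :=
    (TH.profile_win.der s).hasDerivWithinAt
  have h2 : HasDerivWithinAt TH.win 0 (Iic s) s := by
    refine (hasDerivWithinAt_const s (Iic s) (1:ℝ)).congr (fun x hx => ?_) ?_
    · exact TH.win_one ((mem_Iic.1 hx).trans hs)
    · exact TH.win_one hs
  have h3 : deriv TH.win s = 0 := (uniqueDiffWithinAt_Iic s).eq_deriv _ h1 h2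
  unfold kk; rw [h3, mul_zero]

lemma one_le_win_of {s : ℝ} (hs : s ≤ 1 / 4) : 1 ≤ TH.win s := (TH.win_one hs).ge

/-! ### the tilt functional in `t` -/

variable {E : Type*} [NormedAddCommGroup E] [InnerProductSpace ℝ E] [FiniteDimensional ℝ E]
  [MeasurableSpace E] [BorelSpace E]

variable {m : ℕ} {T : Submodule ℝ E} {G : Set E} {h : ℝ} {ν : Measure E} {P : E → E →L[ℝ] E}
  {z c : E} {k k' K : ℝ → ℝ}

lemma integrable_K (hC : CylStat m T G h ν P) (hk : Kern k k' K) {t : ℝ} (ht : 0 < t)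
    {w : E → ℝ} {C : ℝ} (hw : AEStronglyMeasurable w ν) (hb : ∀ᵐ y ∂ν, |w y| ≤ C) :
    Integrable (fun y => K (bsq T z y / t ^ 2) * w y) ν := by
  haveI := hC.fin
  exact integrable_kernel hk.pK.continuous hk.pK.zero (continuous_bsq T z).aestronglyMeasurable
    (bsq_nonneg T z) hw (R := t + 1) (C := C) (by filter_upwards [hb] with y hy _ using hy) ht
    (by linarith)

lemma integrable_k (hC : CylStat m T G h ν P) (hk : Kern k k' K) {t : ℝ} (ht : 0 < t)
    {w : E → ℝ} {C : ℝ} (hw : AEStronglyMeasurable w ν) (hb : ∀ᵐ y ∂ν, |w y| ≤ C) :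
    Integrable (fun y => k (bsq T z y / t ^ 2) * w y) ν := by
  haveI := hC.fin
  exact integrable_kernel hk.pk.continuous hk.pk.zero (continuous_bsq T z).aestronglyMeasurable
    (bsq_nonneg T z) hw (R := t + 1) (C := C) (by filter_upwards [hb] with y hy _ using hy) ht
    (by linarith)

/-- derivative of `tiltK`: `t g' ≥ b - (m - 2) g` -/
lemma CylStat.tiltK_deriv (hC : CylStat m T G h ν P) (hk : Kern k k' K) {t : ℝ} (ht : 0 < t) :
    ∃ D, HasDerivAt (tiltK m T z K P ν) D t ∧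
      radK m T z k P ν t - ((m : ℝ) - 2) * tiltK m T z K P ν t ≤ t * D := by
  haveI := hC.fin
  have hpl := CylStat.plane hC
  have hb : ∀ᵐ y ∂ν, |ODE.tilt T P y| ≤ 2 * (Module.finrank ℝ E : ℝ) := hpl.abs_tilt_le
  have ham : AEStronglyMeasurable (bsq T z) ν := (continuous_bsq T z).aestronglyMeasurable
  have key := hasDerivAt_scaled (ν := ν) hk.pK ham (bsq_nonneg T z) (w := ODE.tilt T P)
    (aesm_tilt hpl.meas) (R := t + 1) (C := 2 * (Module.finrank ℝ E : ℝ))
    (by filter_upwards [hb] with y hy _ using hy) ht (by linarith) (2 - (m : ℤ))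
  refine ⟨_, key, ?_⟩
  rw [← mul_assoc, mul_inv_cancel₀ ht.ne', one_mul]
  unfold tiltK
  have hψ : Continuous fun s => ((2 - (m : ℤ) : ℤ) : ℝ) * K s - 2 * s * (-(k s) / 2) :=
    (continuous_const.mul hk.pK.continuous).sub
      ((continuous_const.mul continuous_id).mul ((hk.pk.continuous.neg).div_const 2))
  have i1 := integrable_K (z := z) hC hk ht (aesm_tilt (T := T) hpl.meas) hb
  have i2 : Integrable (fun y => (((2 - (m : ℤ) : ℤ) : ℝ) * K (bsq T z y / t ^ 2)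
      - 2 * (bsq T z y / t ^ 2) * (-(k (bsq T z y / t ^ 2)) / 2)) * ODE.tilt T P y) ν :=
    integrable_kernel (ψ := fun s => ((2 - (m : ℤ) : ℤ) : ℝ) * K s - 2 * s * (-(k s) / 2)) hψ
      (fun s hs => by simp [hk.pK.zero s hs, hk.pk.zero s hs]) ham (bsq_nonneg T z)
      (aesm_tilt hpl.meas) (R := t + 1) (C := 2 * (Module.finrank ℝ E : ℝ))
      (by filter_upwards [hb] with y hy _ using hy) ht (by linarith)
  have i3 : Integrable (fun y => k (bsq T z y / t ^ 2) * rad T P z y) ν := by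
    refine integrable_kernel hk.pk.continuous hk.pk.zero ham (bsq_nonneg T z)
      (aesm_rad hpl.meas) (C := (t + 1) ^ 2) (R := t + 1) ?_ ht (by linarith)
    filter_upwards [hpl.rad_le (T := T) (z := z)] with y h1 h2
    rw [abs_of_nonneg (rad_nonneg y)]
    exact h1.trans h2.le
  unfold radK
  have e3 : t ^ (-(m : ℤ)) = t ^ (2 - (m : ℤ)) * (t ^ 2)⁻¹ := by
    rw [show (2 - (m : ℤ)) = 2 + (-(m : ℤ)) by ring, zpow_add₀ ht.ne']
    have : t ^ (2 : ℤ) = t ^ 2 := by norm_cast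
    rw [this]
    field_simp
  have e4 : t ^ (-(m : ℤ)) * (∫ y, k (bsq T z y / t ^ 2) * rad T P z y ∂ν)
      - ((m : ℝ) - 2) * (t ^ (2 - (m : ℤ)) * ∫ y, K (bsq T z y / t ^ 2) * ODE.tilt T P y ∂ν)
      = t ^ (2 - (m : ℤ)) * ∫ y, ((t ^ 2)⁻¹ * (k (bsq T z y / t ^ 2) * rad T P z y)
        + (2 - (m : ℝ)) * (K (bsq T z y / t ^ 2) * ODE.tilt T P y)) ∂ν := by
    rw [integral_add (i3.const_mul _) (i1.const_mul _), integral_const_mul, integral_const_mul, e3]
    ring
  rw [e4]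
  refine mul_le_mul_of_nonneg_left ?_ (zpow_nonneg ht.le _)
  refine integral_mono_ae ((i3.const_mul _).add (i1.const_mul _)) i2 ?_
  filter_upwards [CylStat.tilt_nonneg hC, CylStat.rad_le_tilt hC z] with y hy hr
  have h1 := hk.nonneg (bsq T z y / t ^ 2)
  have h3 : (t ^ 2)⁻¹ * (k (bsq T z y / t ^ 2) * rad T P z y)
      ≤ (t ^ 2)⁻¹ * (k (bsq T z y / t ^ 2) * (bsq T z y * ODE.tilt T P y)) := by
    gcongr
  have h4 : (t ^ 2)⁻¹ * (k (bsq T z y / t ^ 2) * (bsq T z y * ODE.tilt T P y))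
      = bsq T z y / t ^ 2 * k (bsq T z y / t ^ 2) * ODE.tilt T P y := by
    field_simp
  rw [h4] at h3
  push_cast
  linarith

lemma CylStat.tiltK_nonneg (hC : CylStat m T G h ν P) (hk : Kern k k' K) {t : ℝ} (ht : 0 < t) :
    0 ≤ tiltK m T z K P ν t := by
  unfold tiltK
  refine mul_nonneg (zpow_nonneg ht.le _) (integral_nonneg_of_ae ?_)
  filter_upwards [CylStat.tilt_nonneg hC] with y hy
  exact mul_nonneg (hk.K_nonneg _) hy

lemma Kern.K_antitone (hk : Kern k k' K) : Antitone K :=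
  antitone_of_deriv_nonpos (fun s => (hk.pK.der s).differentiableAt) (fun s => by
      rw [(hk.pK.der s).deriv]; have := hk.nonneg s; linarith)

/-- `t^{m-2} g(t)` is nondecreasing -/
lemma CylStat.tiltK_mono (hC : CylStat m T G h ν P) (hk : Kern k k' K) {s t : ℝ} (hs : 0 < s)
    (hst : s ≤ t) : s ^ ((m : ℤ) - 2) * tiltK m T z K P ν s
      ≤ t ^ ((m : ℤ) - 2) * tiltK m T z K P ν t := by
  have ht : 0 < t := hs.trans_le hst
  have hpl := CylStat.plane hC
  have hb : ∀ᵐ y ∂ν, |ODE.tilt T P y| ≤ 2 * (Module.finrank ℝ E : ℝ) := hpl.abs_tilt_le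
  unfold tiltK
  have e1 : ∀ r : ℝ, 0 < r → ∀ x : ℝ, r ^ ((m : ℤ) - 2) * (r ^ (2 - (m : ℤ)) * x) = x := by
    intro r hr x
    rw [← mul_assoc, ← zpow_add₀ hr.ne']
    simp
  rw [e1 s hs, e1 t ht]
  refine integral_mono_ae (integrable_K hC hk hs (aesm_tilt hpl.meas) hb)
    (integrable_K hC hk ht (aesm_tilt hpl.meas) hb) ?_
  filter_upwards [CylStat.tilt_nonneg hC] with y hy
  refine mul_le_mul_of_nonneg_right ?_ hy
  refine Kern.K_antitone hk ?_
  have := bsq_nonneg T z y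
  gcongr

lemma CylStat.tiltK_pos (hC : CylStat m T G h ν P) (hk : Kern k k' K) {s t : ℝ} (hs : 0 < s)
    (hst : s ≤ t) (h0 : 0 < tiltK m T z K P ν s) : 0 < tiltK m T z K P ν t := by
  have h1 := CylStat.tiltK_mono (z := z) hC hk hs hst
  have h2 : 0 < s ^ ((m : ℤ) - 2) * tiltK m T z K P ν s := mul_pos (zpow_pos hs _) h0
  have h3 := h2.trans_le h1
  by_contra hcon
  exact absurd h3 (not_lt.2 (mul_nonpos_of_nonneg_of_nonpos (zpow_nonneg (hs.le.trans hst) _)
    (not_lt.1 hcon)))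

lemma hessK_hsq (hC : CylStat m T G h ν P) (hc : c ∈ Tᗮ) (t : ℝ) :
    hessK m T z K (hsq T c) P ν t = tiltK m T z K P ν t := by
  unfold hessK tiltK
  congr 1
  refine integral_congr_ae (Eventually.of_forall fun y => ?_)
  simp only
  have h1 : hess (hsq T c) (P y) y = FV.tilt T (P y) := hess_hgt_sq hc _ y
  rw [h1, TH.tilt_agree]

/-- the height ODE around one centre, with the error absorbed in `b` -/
lemma CylStat.H_deriv (hC : CylStat m T G h ν P) (hk : Kern k k' K)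
    (hk0 : ∀ s, s ≤ 1 / 4 → k s = 0) (hm : 1 ≤ m) (hc : c ∈ Tᗮ) {t R ε : ℝ}
    (ht0 : 0 < t) (hR : t < R) (hG : BallIn T G z R) (hε : 0 ≤ ε)
    (hS : ∀ᵐ y ∂ν, bsq T z y < t ^ 2 → 2 * m * ‖hgt T c y‖ ^ 2 ≤ ε * t ^ 2) :
    ∃ D, HasDerivAt (fun t => 2 * hgtTh m T z k (hsq T c) P ν t) D t ∧
      t * D ≤ 2 * tiltK m T z K P ν t + 2 * ε * radK m T z k P ν t := by
  have hm0 : (0:ℝ) < m := by exact_mod_cast hm
  have hF0 : ∀ᵐ y ∂ν, bsq T z y < t ^ 2 → 0 ≤ hsq T c y := Eventually.of_forall fun y _ => by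
    unfold hsq; positivity
  have hFS : ∀ᵐ y ∂ν, bsq T z y < t ^ 2 → hsq T c y ≤ ε * t ^ 2 / (4 * m) := by
    filter_upwards [hS] with y hy hlt
    have h1 := hy hlt
    unfold hsq
    rw [div_le_div_iff₀ (by norm_num) (by positivity)]
    nlinarith
  obtain ⟨D, hD, hD'⟩ := CylStat.height_theta_deriv_le (F := hsq T c) hC hk hk0
    (contDiff_hsq T c) ht0 hR hG hF0 hFS (by positivity)
  refine ⟨2 * D, hD.const_mul 2, ?_⟩
  rw [hessK_hsq hC hc] at hD'
  have e1 : 4 * (m : ℝ) * (ε * t ^ 2 / (4 * m)) / t ^ 2 = ε := by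
    field_simp
  rw [e1] at hD'
  linarith

/-- **The path data of a `CylStat` around one cluster centre `c`.** -/
theorem CylStat.pathData (hC : CylStat m T G h ν P) (hk : Kern k k' K)
    (hk0 : ∀ s, s ≤ 1 / 4 → k s = 0) (hm : 1 ≤ m) (hc : c ∈ Tᗮ) (cQ : ℝ) {t₀ t₁ R ε : ℝ}
    (ht₀ : 0 < t₀) (hR : t₁ < R) (hG : BallIn T G z R) (hε : 0 < ε) (hε1 : ε ≤ 1 / 4)
    (hS : ∀ t ∈ Icc t₀ t₁, ∀ᵐ y ∂ν, bsq T z y < t ^ 2 → 2 * m * ‖hgt T c y‖ ^ 2 ≤ ε * t ^ 2)
    (hg : 0 < tiltK m T z K P ν t₀) {μ : ℝ} (hμ : 0 ≤ μ) (hμm : (m : ℝ) - 2 ≤ μ) :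
    PathData (aK m T z K ν cQ) (tiltK m T z K P ν) (radK m T z k P ν)
      (fun t => 2 * hgtTh m T z k (hsq T c) P ν t) t₀ t₁ μ ε where
  ht₀ := ht₀
  hμ := hμ
  hε := hε
  hε1 := hε1
  ha := fun t ht => by
    have ht0 : 0 < t := ht₀.trans_le ht.1
    exact CylStat.a_ode hC hk ht0 (fun x hx hx2 => hG x hx (hx2.trans (ht.2.trans hR.le))) cQ
  hH := fun t ht => CylStat.H_deriv hC hk hk0 hm hc (ht₀.trans_le ht.1) (ht.2.trans_lt hR) hG
    hε.le (hS t ht)
  hg := fun t ht => by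
    have ht0 : 0 < t := ht₀.trans_le ht.1
    obtain ⟨D, hD, hD'⟩ := CylStat.tiltK_deriv (z := z) hC hk ht0
    refine ⟨D, hD, ?_⟩
    have := CylStat.tiltK_nonneg (z := z) hC hk ht0
    nlinarith
  hcs := fun t ht => by
    have ht0 : 0 < t := ht₀.trans_le ht.1
    have h1 := CylStat.cs_two_theta (F := hsq T c) hC hk (contDiff_hsq T c) (fun y => by
        rw [grad_hsq hc]
        exact (Submodule.starProjection_apply_eq_zero_iff T).2 (hgt_mem hc y))
          ht0 (ht.2.trans_lt hR) hG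
      (Eventually.of_forall fun y _ => by
        rw [grad_hsq hc]; unfold hsq; linarith)
    rw [hessK_hsq hC hc] at h1
    exact h1
  hb := fun t ht => CylStat.radK_nonneg hk (ht₀.trans_le ht.1)
  hg0 := fun t ht => CylStat.tiltK_pos hC hk ht₀ ht.1 hg

end Vale.Agent.P214.NGP
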