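import Mathlib

/-!
# P214, block NGP: the abstract path lemma for one cluster

`u = log t`; real functions `a, g, b, H` on `[t₀, t₁]` with
* `a_u = 2 (a - g) + 2 b`,
* `H_u ≤ 2 g + 2 ε b`,
* `g_u ≥ b - μ g`, `0 < g`, `0 ≤ b`,
* `g² ≤ H b`,
and `Y = min 1 ((g - a)⁺ / g)` with `∫ Y du ≤ B`.  With `A = max a (g/2)`:
* `H ≤ β A` along the path,
* `A (t) ≥ A (t₀) (t / t₀)^(1/(2β)) e^{-(4+2μ)B}`.
No doubling and no other scale is used.
-/

open Set Filter Topology MeasureTheory

set_option linter.all false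

namespace Vale.Agent.P214.NGP

/-! ### first exit -/

lemma eventually_neg_of_deriv {f : ℝ → ℝ} {f' t : ℝ} (h : HasDerivWithinAt f f' (Ioi t) t)
    (hf : f t ≤ 0) (hf' : f' < 0) : ∀ᶠ s in 𝓝[>] t, f s < 0 := by
  have h1 : Tendsto (slope f t) (𝓝[Ioi t \ {t}] t) (𝓝 f') :=
    hasDerivWithinAt_iff_tendsto_slope.1 h
  have h2 : Ioi t \ {t} = Ioi t := by
    ext x; simp only [mem_diff, mem_Ioi, mem_singleton_iff]
    exact ⟨fun h => h.1, fun h => ⟨h, h.ne'⟩⟩
  rw [h2] at h1
  filter_upwards [h1.eventually (gt_mem_nhds hf'), self_mem_nhdsWithin] with s hs hs2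
  have hs3 : (0:ℝ) < s - t := sub_pos.2 hs2
  rw [slope_def_field, div_lt_iff₀ hs3] at hs
  linarith

lemma min_exit {f₁ f₂ : ℝ → ℝ} {t₀ t₁ : ℝ} (h₁ : ContinuousOn f₁ (Icc t₀ t₁))
    (h₂ : ContinuousOn f₂ (Icc t₀ t₁)) (h0 : f₁ t₀ ≤ 0 ∨ f₂ t₀ ≤ 0)
    (hexit : ∀ t ∈ Ico t₀ t₁, 0 ≤ f₁ t → 0 ≤ f₂ t → (f₁ t = 0 ∨ f₂ t = 0) →
      ∃ i : Bool, (if i then f₁ t else f₂ t) ≤ 0 ∧ ∃ D < 0,
        HasDerivWithinAt (if i then f₁ else f₂) D (Ioi t) t) :
    ∀ t ∈ Icc t₀ t₁, f₁ t ≤ 0 ∨ f₂ t ≤ 0 := by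
  by_cases h01 : t₀ ≤ t₁
  swap
  · intro t ht; exact absurd (ht.1.trans ht.2) h01
  set s : Set ℝ := {t | min (f₁ t) (f₂ t) ≤ 0} with hs
  have hmin : ContinuousOn (fun t => min (f₁ t) (f₂ t)) (Icc t₀ t₁) := ContinuousOn.inf h₁ h₂
  have hcl : IsClosed (s ∩ Icc t₀ t₁) := by
    have := hmin.preimage_isClosed_of_isClosed isClosed_Icc (isClosed_Iic (a := (0:ℝ)))
    convert this using 1
    ext t; simp only [hs, mem_inter_iff, mem_setOf_eq, mem_preimage, mem_Iic]; tauto
  have hmem : t₀ ∈ s := by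
    simp only [hs, mem_setOf_eq]; exact min_le_iff.2 h0
  have hsub : Icc t₀ t₁ ⊆ s := by
    refine hcl.Icc_subset_of_forall_exists_gt hmem ?_
    rintro t ⟨hts, ht⟩ y hy
    have hev : ∀ᶠ x in 𝓝[>] t, x ∈ s := by
      simp only [hs, mem_setOf_eq] at hts ⊢
      rcases hts.lt_or_eq with hlt | heq
      · have hc : ContinuousWithinAt (fun t => min (f₁ t) (f₂ t)) (Ioi t) t := by
          have h3 := hmin t ⟨ht.1, ht.2.le⟩
          refine (h3.mono_of_mem_nhdsWithin ?_)
          have : Ioo t t₁ ∈ 𝓝[>] t := Ioo_mem_nhdsGT ht.2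
          filter_upwards [this] with x hx using ⟨ht.1.trans hx.1.le, hx.2.le⟩
        have := hc.eventually (gt_mem_nhds hlt)
        filter_upwards [this] with x hx using hx.le
      · have ha1 : 0 ≤ f₁ t := heq ▸ min_le_left _ _
        have ha2 : 0 ≤ f₂ t := heq ▸ min_le_right _ _
        have ha3 : f₁ t = 0 ∨ f₂ t = 0 := by
          rcases min_choice (f₁ t) (f₂ t) with h | h
          · left; rw [← h, heq]
          · right; rw [← h, heq]
        obtain ⟨i, hi, D, hD, hder⟩ := hexit t ht ha1 ha2 ha3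
        cases i
        · simp only [Bool.false_eq_true, if_false] at hi hder
          filter_upwards [eventually_neg_of_deriv hder hi hD] with x hx
          exact (min_le_right _ _).trans hx.le
        · simp only [if_true] at hi hder
          filter_upwards [eventually_neg_of_deriv hder hi hD] with x hx
          exact (min_le_left _ _).trans hx.le
    have hev2 : ∀ᶠ x in 𝓝[>] t, x ∈ Ioc t y := Ioc_mem_nhdsGT hy
    obtain ⟨x, hx1, hx2⟩ := (hev.and hev2).exists
    exact ⟨x, hx1, hx2⟩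
  intro t ht
  exact min_le_iff.1 (hsub ht)

/-- version with one function -/
lemma exit_one {f : ℝ → ℝ} {t₀ t₁ : ℝ} (h₁ : ContinuousOn f (Icc t₀ t₁)) (h0 : f t₀ ≤ 0)
    (hexit : ∀ t ∈ Ico t₀ t₁, f t = 0 → ∃ D < 0, HasDerivWithinAt f D (Ioi t) t) :
    ∀ t ∈ Icc t₀ t₁, f t ≤ 0 := by
  intro t ht
  have := min_exit h₁ h₁ (Or.inl h0) (fun t ht _ _ h => ⟨true, by
    simp only [if_true]
    rcases h with h | h <;> exact h.le, by
    simp only [if_true]
    rcases h with h | h <;> exact hexit t ht h⟩) t ht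
  rcases this with h | h <;> exact h

/-! ### the path data -/

/-- the truncated ratio `min 1 ((g - a)⁺/g)` -/
noncomputable def Yf (a g : ℝ → ℝ) (t : ℝ) : ℝ := min 1 (max 0 ((g t - a t) / g t))

lemma Yf_nonneg (a g : ℝ → ℝ) (t : ℝ) : 0 ≤ Yf a g t :=
  le_min zero_le_one (le_max_left _ _)

lemma Yf_le_one (a g : ℝ → ℝ) (t : ℝ) : Yf a g t ≤ 1 := min_le_left _ _

/-- the differential relations along the path (in the variable `t`) -/
structure PathData (a g b H : ℝ → ℝ) (t₀ t₁ μ ε : ℝ) : Prop where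
  ht₀ : 0 < t₀
  hμ : 0 ≤ μ
  hε : 0 < ε
  hε1 : ε ≤ 1 / 4
  ha : ∀ t ∈ Icc t₀ t₁, HasDerivAt a (t⁻¹ * (2 * (a t - g t) + 2 * b t)) t
  hH : ∀ t ∈ Icc t₀ t₁, ∃ D, HasDerivAt H D t ∧ t * D ≤ 2 * g t + 2 * ε * b t
  hg : ∀ t ∈ Icc t₀ t₁, ∃ D, HasDerivAt g D t ∧ b t - μ * g t ≤ t * D
  hcs : ∀ t ∈ Icc t₀ t₁, g t ^ 2 ≤ H t * b t
  hb : ∀ t ∈ Icc t₀ t₁, 0 ≤ b t
  hg0 : ∀ t ∈ Icc t₀ t₁, 0 < g t

namespace PathData

variable {a g b H : ℝ → ℝ} {t₀ t₁ μ ε : ℝ}

lemma ca (h : PathData a g b H t₀ t₁ μ ε) : ContinuousOn a (Icc t₀ t₁) :=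
  fun t ht => (h.ha t ht).continuousAt.continuousWithinAt

lemma cg (h : PathData a g b H t₀ t₁ μ ε) : ContinuousOn g (Icc t₀ t₁) := fun t ht => by
  obtain ⟨D, hD, -⟩ := h.hg t ht
  exact hD.continuousAt.continuousWithinAt

lemma cH (h : PathData a g b H t₀ t₁ μ ε) : ContinuousOn H (Icc t₀ t₁) := fun t ht => by
  obtain ⟨D, hD, -⟩ := h.hH t ht
  exact hD.continuousAt.continuousWithinAt

lemma cY (h : PathData a g b H t₀ t₁ μ ε) : ContinuousOn (Yf a g) (Icc t₀ t₁) := by
  unfold Yf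
  refine ContinuousOn.inf continuousOn_const (ContinuousOn.sup continuousOn_const ?_)
  exact (h.cg.sub h.ca).div h.cg fun t ht => (h.hg0 t ht).ne'

end PathData

/-- the integral of `Y` in the variable `log t` -/
noncomputable def If (a g : ℝ → ℝ) (t₀ t : ℝ) : ℝ := ∫ s in t₀..t, Yf a g s / s

section

variable {a g b H : ℝ → ℝ} {t₀ t₁ μ ε : ℝ}

lemma PathData.cYs (h : PathData a g b H t₀ t₁ μ ε) :
    ContinuousOn (fun s => Yf a g s / s) (Icc t₀ t₁) :=
  h.cY.div continuousOn_id fun t ht => (h.ht₀.trans_le ht.1).ne'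

lemma PathData.int_on (h : PathData a g b H t₀ t₁ μ ε) {t : ℝ} (ht : t ∈ Icc t₀ t₁) :
    IntervalIntegrable (fun s => Yf a g s / s) volume t₀ t := by
  refine ContinuousOn.intervalIntegrable ?_
  rw [uIcc_of_le ht.1]
  exact h.cYs.mono (Icc_subset_Icc_right ht.2)

lemma PathData.If_deriv (h : PathData a g b H t₀ t₁ μ ε) {t : ℝ} (ht : t ∈ Ico t₀ t₁) :
    HasDerivWithinAt (If a g t₀) (Yf a g t / t) (Ioi t) t := by
  unfold If
  have hmem : Icc t₀ t₁ ∈ 𝓝[>] t := by
    filter_upwards [Ioo_mem_nhdsGT ht.2] with x hx using ⟨ht.1.trans hx.1.le, hx.2.le⟩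
  have key : HasDerivWithinAt (fun u => ∫ s in t₀..u, Yf a g s / s) (Yf a g t / t) (Ici t) t := by
    refine intervalIntegral.integral_hasDerivWithinAt_right (t := Ioi t)
      (h.int_on ⟨ht.1, ht.2.le⟩) ?_ ?_
    · refine ⟨Icc t₀ t₁, hmem, ?_⟩
      exact h.cYs.aestronglyMeasurable measurableSet_Icc
    · exact (h.cYs t ⟨ht.1, ht.2.le⟩).mono_of_mem_nhdsWithin hmem
  exact key.mono Ioi_subset_Ici_self

lemma PathData.If_cont (h : PathData a g b H t₀ t₁ μ ε) :
    ContinuousOn (If a g t₀) (Icc t₀ t₁) := by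
  by_cases h01 : t₀ ≤ t₁
  · unfold If
    have := intervalIntegral.continuousOn_primitive_interval' (μ := volume)
      (f := fun s => Yf a g s / s) (h.int_on ⟨h01, le_rfl⟩) (a := t₀) left_mem_uIcc
    rwa [uIcc_of_le h01] at this
  · rw [Icc_eq_empty h01]; exact continuousOn_empty _

lemma If_self : If a g t₀ t₀ = 0 := by unfold If; simp

lemma PathData.If_nonneg (h : PathData a g b H t₀ t₁ μ ε) {t : ℝ} (ht : t ∈ Icc t₀ t₁) :
    0 ≤ If a g t₀ t := by
  unfold If
  refine intervalIntegral.integral_nonneg ht.1 fun s hs => ?_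
  exact div_nonneg (Yf_nonneg _ _ _) (h.ht₀.le.trans hs.1)

/-- right derivative of the exponential multiplier `exp (κ I + c log (t/t₀))` -/
lemma PathData.exp_deriv (h : PathData a g b H t₀ t₁ μ ε) {t : ℝ} (ht : t ∈ Ico t₀ t₁)
    (κ c : ℝ) : HasDerivWithinAt (fun t => Real.exp (κ * If a g t₀ t + c * Real.log (t / t₀)))
      (Real.exp (κ * If a g t₀ t + c * Real.log (t / t₀)) * ((κ * Yf a g t + c) / t))
      (Ioi t) t := by
  have ht0 : 0 < t := h.ht₀.trans_le ht.1
  have h1 := (h.If_deriv ht).const_mul κ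
  have h2 : HasDerivAt (fun t => Real.log (t / t₀)) (t⁻¹) t := by
    have h3 : HasDerivAt (fun t : ℝ => t / t₀) (1 / t₀) t := (hasDerivAt_id t).div_const t₀
    have h4 := h3.log (div_pos ht0 h.ht₀).ne'
    refine h4.congr_deriv ?_
    have := h.ht₀.ne'
    field_simp
  have h5 := (h1.add (h2.hasDerivWithinAt.const_mul c)).exp
  refine h5.congr_deriv ?_
  simp only [Pi.add_apply]
  ring

lemma PathData.exp_cont (h : PathData a g b H t₀ t₁ μ ε) (κ c : ℝ) :
    ContinuousOn (fun t => Real.exp (κ * If a g t₀ t + c * Real.log (t / t₀)))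
      (Icc t₀ t₁) := by
  refine Real.continuous_exp.comp_continuousOn ?_
  refine (continuousOn_const.mul h.If_cont).add (continuousOn_const.mul ?_)
  refine ContinuousOn.log (continuousOn_id.div_const _) fun t ht => ?_
  exact (div_pos (h.ht₀.trans_le ht.1) h.ht₀).ne'

lemma log_ratio_nonneg (ht₀ : 0 < t₀) {t : ℝ} (ht : t₀ ≤ t) : 0 ≤ Real.log (t / t₀) :=
  Real.log_nonneg (by rwa [one_le_div ht₀])

end

/-! ### algebra -/

lemma Yf_bad {a g : ℝ → ℝ} {t : ℝ} (hg : 0 < g t) (ha : a t < g t / 2) : 1 / 2 ≤ Yf a g t := by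
  unfold Yf
  refine le_min (by norm_num) (le_max_of_le_right ?_)
  rw [le_div_iff₀ hg]; linarith

lemma Yf_good {a g : ℝ → ℝ} {t : ℝ} (hg : 0 < g t) (ha : g t / 2 ≤ a t) (hag : a t ≤ g t) :
    Yf a g t * g t = g t - a t := by
  unfold Yf
  have h1 : (g t - a t) / g t ≤ 1 := by rw [div_le_one hg]; linarith
  have h2 : 0 ≤ (g t - a t) / g t := div_nonneg (by linarith) hg.le
  rw [max_eq_right h2, min_eq_right h1]
  field_simp

lemma alg_good {a g b H ε β Y κ : ℝ} (ha : g / 2 ≤ a) (hg : 0 < g) (hb : 0 ≤ b) (hε : 0 < ε)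
    (hε1 : ε ≤ 1) (hβ : 1 ≤ β) (hH : H = β * a) (hcs : g ^ 2 ≤ H * b) (hY0 : 0 ≤ Y)
    (hY : a ≤ g → Y * g = g - a) (hκ : 4 ≤ κ) :
    2 * g + 2 * ε * b - β * (2 * (a - g) + 2 * b) - (β + 1) * (κ * Y + 9 * ε) * a < 0 := by
  have ha0 : 0 < a := by linarith
  set q := g ^ 2 / a with hq
  have hqa : q * a = g ^ 2 := by rw [hq]; field_simp
  have hq0 : 0 ≤ q := by rw [hq]; positivity
  have h1 : q ≤ β * b := by
    rw [hq, div_le_iff₀ ha0]
    rw [hH] at hcs; nlinarith
  have h2 : q - ε * q ≤ (β - ε) * b := by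
    -- `(β-ε) b ≥ (1-ε) β b ≥ (1-ε) q`
    have h3 : (1 - ε) * β ≤ β - ε := by nlinarith
    have h4 : (1 - ε) * q ≤ (1 - ε) * (β * b) :=
      mul_le_mul_of_nonneg_left h1 (by linarith)
    have h5 : (1 - ε) * (β * b) ≤ (β - ε) * b := by
      rw [← mul_assoc]; exact mul_le_mul_of_nonneg_right h3 hb
    linarith
  have h6 : 2 * g + 2 * ε * b - β * (2 * (a - g) + 2 * b)
      ≤ 2 * g - 2 * q + 2 * ε * q + 2 * β * (g - a) := by nlinarith
  have hpos : 0 < (β + 1) * (9 * ε) * a := by positivity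
  have hpos2 : 0 ≤ (β + 1) * (κ * Y) * a := by
    have : 0 ≤ κ * Y := mul_nonneg (by linarith) hY0
    positivity
  have hsplit : (β + 1) * (κ * Y + 9 * ε) * a
      = (β + 1) * (κ * Y) * a + (β + 1) * (9 * ε) * a := by ring
  have h9 : 18 * (ε * a) ≤ (β + 1) * (9 * ε) * a := by
    have : 0 < ε * a := by positivity
    nlinarith
  have h10 : 0 < ε * a := by positivity
  by_cases hag : g ≤ a
  · have h7 : q ≤ a := by rw [hq, div_le_iff₀ ha0]; nlinarith
    have h8 : g - q ≤ a - g := by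
      have : (g - q) * a ≤ (a - g) * a := by nlinarith
      exact le_of_mul_le_mul_right this ha0
    have h11 : 2 * β * (g - a) ≤ 2 * (g - a) := by
      have : (β - 1) * (g - a) ≤ 0 :=
        mul_nonpos_of_nonneg_of_nonpos (by linarith) (by linarith)
      linarith
    have h12 : ε * q ≤ ε * a := mul_le_mul_of_nonneg_left h7 hε.le
    linarith
  · rw [not_le] at hag
    have hYg := hY hag.le
    have h7 : q ≤ 4 * a := by rw [hq, div_le_iff₀ ha0]; nlinarith
    have h8 : g ≤ q := by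
      rw [hq, le_div_iff₀ ha0]; nlinarith
    have h12 : ε * q ≤ ε * (4 * a) := mul_le_mul_of_nonneg_left h7 hε.le
    have h13 : g - a ≤ 2 * (Y * a) := by
      rw [← hYg]
      have : Y * g ≤ Y * (2 * a) := mul_le_mul_of_nonneg_left (by linarith) hY0
      linarith
    have h14 : 2 * β * (g - a) ≤ 2 * (β + 1) * (2 * (Y * a)) := by
      have h15 : 2 * β ≤ 2 * (β + 1) := by linarith
      exact mul_le_mul h15 h13 (by linarith) (by linarith)
    have h16 : (β + 1) * (4 * Y) * a ≤ (β + 1) * (κ * Y) * a := by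
      gcongr
    nlinarith

lemma alg_bad {g b ε β Y μ tg : ℝ} (hg : 0 < g) (hb : 0 ≤ b) (hε : 0 < ε) (hε1 : ε ≤ 1 / 4)
    (hβ : 1 ≤ β) (hμ : 0 ≤ μ) (htg : b - μ * g ≤ tg) (hY : 1 / 2 ≤ Y) :
    2 * g + 2 * ε * b - (β + 1) * ((8 + 2 * μ) * Y + 9 * ε) * (g / 2) - β * tg / 2 < 0 := by
  have h0 : β * (b - μ * g) ≤ β * tg := mul_le_mul_of_nonneg_left htg (by linarith)
  have h1 : 2 * ε * b ≤ β * b / 2 := by nlinarith
  have h4 : (4 + μ) ≤ (8 + 2 * μ) * Y := by nlinarith
  have h5 : (β + 1) * ((4 + μ) + 9 * ε) * (g / 2)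
      ≤ (β + 1) * ((8 + 2 * μ) * Y + 9 * ε) * (g / 2) := by
    gcongr
  have h6 : 0 < (β + 1) * (9 * ε) * (g / 2) := by positivity
  have h7 : 0 ≤ μ * g := by positivity
  nlinarith [mul_nonneg (sub_nonneg.2 hβ) hg.le]

section

variable {a g b H : ℝ → ℝ} {t₀ t₁ μ ε : ℝ}

/-! ### (ii) upper bound of the height by the energy -/

lemma PathData.H_le (h : PathData a g b H t₀ t₁ μ ε) {R₀ : ℝ} (hR : 1 ≤ R₀)
    (hR0 : H t₀ ≤ R₀ * max (a t₀) (g t₀ / 2)) :
    ∀ t ∈ Icc t₀ t₁, H t
      ≤ ((R₀ + 1) * Real.exp ((8 + 2 * μ) * If a g t₀ t + 9 * ε * Real.log (t / t₀)) - 1)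
        * max (a t) (g t / 2) := by
  set e : ℝ → ℝ := fun t =>
    Real.exp ((8 + 2 * μ) * If a g t₀ t + 9 * ε * Real.log (t / t₀)) with he
  have hμ := h.hμ
  have hε := h.hε
  have hε1 := h.hε1
  have he1 : ∀ t ∈ Icc t₀ t₁, 1 ≤ e t := fun t ht => by
    refine Real.one_le_exp (add_nonneg (mul_nonneg (by linarith) (h.If_nonneg ht)) ?_)
    exact mul_nonneg (by linarith) (log_ratio_nonneg h.ht₀ ht.1)
  have hce : ContinuousOn e (Icc t₀ t₁) := h.exp_cont _ _
  set β : ℝ → ℝ := fun t => (R₀ + 1) * e t - 1 with hβd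
  have hβ1 : ∀ t ∈ Icc t₀ t₁, 1 ≤ β t := fun t ht => by
    have h1 := he1 t ht
    have h2 : (R₀ + 1) * 1 ≤ (R₀ + 1) * e t := mul_le_mul_of_nonneg_left h1 (by linarith)
    show 1 ≤ (R₀ + 1) * e t - 1
    linarith
  have hcβ : ContinuousOn β (Icc t₀ t₁) := (continuousOn_const.mul hce).sub continuousOn_const
  have key := min_exit (f₁ := fun t => H t - β t * a t)
    (f₂ := fun t => H t - β t * (g t / 2)) (t₀ := t₀) (t₁ := t₁)
    (h.cH.sub (hcβ.mul h.ca))
    (h.cH.sub (hcβ.mul (h.cg.div_const _)))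
    (by
      have hβ0 : β t₀ = R₀ := by
        simp only [hβd, he, If_self, div_self h.ht₀.ne', Real.log_one]
        simp
      simp only [hβ0]
      rcases max_choice (a t₀) (g t₀ / 2) with hm | hm
      · left; rw [hm] at hR0; linarith
      · right; rw [hm] at hR0; linarith)
    (by
      intro t ht hf1 hf2 hf
      have ht' : t ∈ Icc t₀ t₁ := ⟨ht.1, ht.2.le⟩
      have ht0 : 0 < t := h.ht₀.trans_le ht.1
      have hg0 := h.hg0 t ht'
      have hb0 := h.hb t ht'
      have hβt := hβ1 t ht'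
      obtain ⟨Dg, hDg, hDg'⟩ := h.hg t ht'
      obtain ⟨DH, hDH, hDH'⟩ := h.hH t ht'
      have hda := h.ha t ht'
      have hde : HasDerivWithinAt e (e t * (((8 + 2 * μ) * Yf a g t + 9 * ε) / t)) (Ioi t) t :=
        h.exp_deriv ht (8 + 2 * μ) (9 * ε)
      have hdβ : HasDerivWithinAt β ((R₀ + 1) * (e t * (((8 + 2 * μ) * Yf a g t + 9 * ε) / t)))
          (Ioi t) t := (hde.const_mul (R₀ + 1)).sub_const 1
      have hY0 := Yf_nonneg a g t
      have hcs := h.hcs t ht'
      have hβe : (R₀ + 1) * e t = β t + 1 := by simp only [hβd]; ring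
      by_cases hag : g t / 2 ≤ a t
      · refine ⟨true, ?_, ?_⟩
        · simp only [if_true]
          rcases hf with hf | hf
          · exact hf.le
          · have : β t * (g t / 2) ≤ β t * a t := mul_le_mul_of_nonneg_left hag (by linarith)
            linarith
        · simp only [if_true]
          have hf0 : 0 ≤ H t - β t * a t := hf1
          have hf1' : H t - β t * a t ≤ 0 := by
            rcases hf with hf | hf
            · exact hf.le
            · have : β t * (g t / 2) ≤ β t * a t := mul_le_mul_of_nonneg_left hag (by linarith)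
              linarith
          have hHeq : H t = β t * a t := by linarith
          have hd := hDH.hasDerivWithinAt.sub (hdβ.mul hda.hasDerivWithinAt) (s := Ioi t)
          refine ⟨_, ?_, hd⟩
          have halg := alg_good (κ := 8 + 2 * μ) hag hg0 hb0 hε (by linarith) hβt hHeq hcs hY0
            (fun h' => Yf_good hg0 hag h') (by linarith)
          have e2 : DH - ((R₀ + 1) * (e t * (((8 + 2 * μ) * Yf a g t + 9 * ε) / t)) * a t
                + β t * (t⁻¹ * (2 * (a t - g t) + 2 * b t)))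
              = t⁻¹ * (t * DH - β t * (2 * (a t - g t) + 2 * b t)
                - (β t + 1) * ((8 + 2 * μ) * Yf a g t + 9 * ε) * a t) := by
            rw [← hβe]; field_simp; ring
          rw [e2]
          refine mul_neg_of_pos_of_neg (inv_pos.2 ht0) ?_
          linarith
      · rw [not_le] at hag
        refine ⟨false, ?_, ?_⟩
        · simp only [Bool.false_eq_true, if_false]
          rcases hf with hf | hf
          · have : β t * a t ≤ β t * (g t / 2) :=
              mul_le_mul_of_nonneg_left hag.le (by linarith)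
            linarith
          · exact hf.le
        · simp only [Bool.false_eq_true, if_false]
          have hd := hDH.hasDerivWithinAt.sub
            (hdβ.mul (hDg.hasDerivWithinAt.div_const 2)) (s := Ioi t)
          refine ⟨_, ?_, hd⟩
          have halg := alg_bad (b := b t) (β := β t) (Y := Yf a g t) (μ := μ) hg0 hb0 hε hε1
            hβt hμ hDg' (Yf_bad hg0 hag)
          have e2 : DH - ((R₀ + 1) * (e t * (((8 + 2 * μ) * Yf a g t + 9 * ε) / t)) * (g t / 2)
                + β t * (Dg / 2))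
              = t⁻¹ * (t * DH
                - (β t + 1) * ((8 + 2 * μ) * Yf a g t + 9 * ε) * (g t / 2)
                - β t * (t * Dg) / 2) := by
            rw [← hβe]; field_simp; ring
          rw [e2]
          refine mul_neg_of_pos_of_neg (inv_pos.2 ht0) ?_
          linarith)
  intro t ht
  have h1 := key t ht
  have hβt := hβ1 t ht
  show H t ≤ β t * max (a t) (g t / 2)
  rcases h1 with h1 | h1
  · have : β t * a t ≤ β t * max (a t) (g t / 2) :=
      mul_le_mul_of_nonneg_left (le_max_left _ _) (by linarith)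
    have h1' : H t - β t * a t ≤ 0 := h1
    linarith
  · have : β t * (g t / 2) ≤ β t * max (a t) (g t / 2) :=
      mul_le_mul_of_nonneg_left (le_max_right _ _) (by linarith)
    have h1' : H t - β t * (g t / 2) ≤ 0 := h1
    linarith

/-! ### (iii) growth -/

lemma PathData.growth (h : PathData a g b H t₀ t₁ μ ε) {β : ℝ} (hβ : 2 ≤ β)
    (hH : ∀ t ∈ Icc t₀ t₁, H t ≤ β * max (a t) (g t / 2)) :
    ∀ t ∈ Icc t₀ t₁, max (a t₀) (g t₀ / 2)
      * Real.exp (-(4 + 2 * μ) * If a g t₀ t + 1 / (2 * β) * Real.log (t / t₀))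
        ≤ max (a t) (g t / 2) := by
  have hμ := h.hμ
  have hβ0 : 0 < β := by linarith
  set A₀ := max (a t₀) (g t₀ / 2) with hA₀
  set e : ℝ → ℝ := fun t =>
    Real.exp (-(4 + 2 * μ) * If a g t₀ t + 1 / (2 * β) * Real.log (t / t₀)) with he
  have hce : ContinuousOn e (Icc t₀ t₁) := h.exp_cont _ _
  set c : ℝ := 1 / (2 * β) with hc
  have hc0 : 0 < c := by rw [hc]; positivity
  have hc4 : c ≤ 1 / 4 := by
    rw [hc, div_le_div_iff₀ (by positivity) (by norm_num)]; linarith
  have key := min_exit (f₁ := fun t => A₀ * e t - a t)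
    (f₂ := fun t => A₀ * e t - g t / 2) (t₀ := t₀) (t₁ := t₁)
    ((continuousOn_const.mul hce).sub h.ca)
    ((continuousOn_const.mul hce).sub (h.cg.div_const _))
    (by
      have he0 : e t₀ = 1 := by
        simp only [he, If_self, div_self h.ht₀.ne', Real.log_one]
        simp
      simp only [he0, mul_one]
      rcases max_choice (a t₀) (g t₀ / 2) with hm | hm
      · left; rw [hA₀, hm]; linarith
      · right; rw [hA₀, hm]; linarith)
    (by
      intro t ht hf1 hf2 hf
      have ht' : t ∈ Icc t₀ t₁ := ⟨ht.1, ht.2.le⟩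
      have ht0 : 0 < t := h.ht₀.trans_le ht.1
      have hg0 := h.hg0 t ht'
      have hb0 := h.hb t ht'
      obtain ⟨Dg, hDg, hDg'⟩ := h.hg t ht'
      have hda := h.ha t ht'
      have hde : HasDerivWithinAt e (e t * ((-(4 + 2 * μ) * Yf a g t + c) / t)) (Ioi t) t :=
        h.exp_deriv ht (-(4 + 2 * μ)) c
      have hY0 := Yf_nonneg a g t
      have hcs := h.hcs t ht'
      by_cases hag : g t / 2 ≤ a t
      · have ha0 : 0 < a t := by linarith
        have hfa : A₀ * e t = a t := by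
          have hf1' : 0 ≤ A₀ * e t - a t := hf1
          rcases hf with hf | hf
          · have hf' : A₀ * e t - a t = 0 := hf
            linarith
          · have hf' : A₀ * e t - g t / 2 = 0 := hf
            linarith
        refine ⟨true, ?_, ?_⟩
        · simp only [if_true]; linarith
        · simp only [if_true]
          have hd := (hde.const_mul A₀).sub hda.hasDerivWithinAt (s := Ioi t)
          refine ⟨_, ?_, hd⟩
          have e2 : A₀ * (e t * ((-(4 + 2 * μ) * Yf a g t + c) / t))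
              - t⁻¹ * (2 * (a t - g t) + 2 * b t)
              = t⁻¹ * (A₀ * e t * (-(4 + 2 * μ) * Yf a g t + c) - (2 * (a t - g t) + 2 * b t)) := by
            field_simp
          rw [e2, hfa]
          refine mul_neg_of_pos_of_neg (inv_pos.2 ht0) ?_
          have hHt := hH t ht'
          rw [max_eq_left hag] at hHt
          set q := g t ^ 2 / a t with hq
          have hqb : q ≤ β * b t := by
            rw [hq, div_le_iff₀ ha0]
            have : H t * b t ≤ β * a t * b t := mul_le_mul_of_nonneg_right hHt hb0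
            nlinarith
          have hca : a t * c * β = a t / 2 := by rw [hc]; field_simp
          by_cases hga : g t ≤ a t
          · -- `a - g + q ≥ 3a/4`
            have h1 : 3 / 4 * a t ≤ a t - g t + q := by
              have : 3 / 4 * a t * a t ≤ (a t - g t + q) * a t := by
                have hqa : q * a t = g t ^ 2 := by rw [hq]; field_simp
                nlinarith [sq_nonneg (a t / 2 - g t)]
              exact le_of_mul_le_mul_right this ha0
            have h2 : 0 ≤ (4 + 2 * μ) * Yf a g t * a t := by positivity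
            -- multiply by β
            have h3 : (a t * c - 2 * (a t - g t) - 2 * b t) * β < 0 := by
              nlinarith [mul_nonneg (sub_nonneg.2 hga) (show 0 ≤ β - 1 by linarith)]
            have h4 : a t * c - 2 * (a t - g t) - 2 * b t < 0 := by
              by_contra hcon
              exact absurd h3 (not_lt.2 (mul_nonneg (not_lt.1 hcon) hβ0.le))
            nlinarith
          · rw [not_le] at hga
            have hYg := Yf_good hg0 hag hga.le
            have h1 : a t ≤ q := by rw [hq, le_div_iff₀ ha0]; nlinarith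
            have h5 : g t - a t ≤ 2 * (Yf a g t * a t) := by
              rw [← hYg]
              have : Yf a g t * g t ≤ Yf a g t * (2 * a t) :=
                mul_le_mul_of_nonneg_left (by linarith) hY0
              linarith
            have h3 : (a t * c - 2 * b t) * β < 0 := by nlinarith
            have h4 : a t * c - 2 * b t < 0 := by
              by_contra hcon
              exact absurd h3 (not_lt.2 (mul_nonneg (not_lt.1 hcon) hβ0.le))
            have h6 : 0 ≤ μ * (Yf a g t * a t) := by positivity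
            nlinarith
      · rw [not_le] at hag
        have hfg : A₀ * e t = g t / 2 := by
          have hf2' : 0 ≤ A₀ * e t - g t / 2 := hf2
          rcases hf with hf | hf
          · have hf' : A₀ * e t - a t = 0 := hf
            linarith
          · have hf' : A₀ * e t - g t / 2 = 0 := hf
            linarith
        refine ⟨false, ?_, ?_⟩
        · simp only [Bool.false_eq_true, if_false]; linarith
        · simp only [Bool.false_eq_true, if_false]
          have hd := (hde.const_mul A₀).sub (hDg.hasDerivWithinAt.div_const 2) (s := Ioi t)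
          refine ⟨_, ?_, hd⟩
          have e2 : A₀ * (e t * ((-(4 + 2 * μ) * Yf a g t + c) / t)) - Dg / 2
              = t⁻¹ * (A₀ * e t * (-(4 + 2 * μ) * Yf a g t + c) - t * Dg / 2) := by
            field_simp
          rw [e2, hfg]
          refine mul_neg_of_pos_of_neg (inv_pos.2 ht0) ?_
          have hYb := Yf_bad hg0 hag
          have h7 : (4 + 2 * μ) * (1 / 2) ≤ (4 + 2 * μ) * Yf a g t :=
            mul_le_mul_of_nonneg_left hYb (by linarith)
          have h8 : g t / 2 * (-(4 + 2 * μ) * Yf a g t + c) ≤ g t / 2 * (-(2 + μ) + 1 / 4) := by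
            refine mul_le_mul_of_nonneg_left ?_ (by linarith)
            linarith
          nlinarith)
  intro t ht
  have h1 := key t ht
  show A₀ * e t ≤ max (a t) (g t / 2)
  rcases h1 with h1 | h1
  · have h1' : A₀ * e t - a t ≤ 0 := h1
    exact (by linarith : A₀ * e t ≤ a t).trans (le_max_left _ _)
  · have h1' : A₀ * e t - g t / 2 ≤ 0 := h1
    exact (by linarith : A₀ * e t ≤ g t / 2).trans (le_max_right _ _)

/-- **The path lemma for one cluster.** -/
theorem path_core (h : PathData a g b H t₀ t₁ μ ε) {R₀ B : ℝ} (hR : 1 ≤ R₀)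
    (hR0 : H t₀ ≤ R₀ * max (a t₀) (g t₀ / 2))
    (hB : If a g t₀ t₁ ≤ B) (hlen : ε * Real.log (t₁ / t₀) ≤ 1) :
    ∀ t ∈ Icc t₀ t₁,
      H t ≤ (R₀ + 1) * Real.exp ((8 + 2 * μ) * B + 9) * max (a t) (g t / 2) ∧
      max (a t₀) (g t₀ / 2) * Real.exp (1 / (2 * ((R₀ + 1) * Real.exp ((8 + 2 * μ) * B + 9)))
          * Real.log (t / t₀)) ≤ Real.exp ((4 + 2 * μ) * B) * max (a t) (g t / 2) := by
  intro t ht
  have h01 : t₀ ≤ t₁ := ht.1.trans ht.2
  have hμ := h.hμ
  have hε := h.hε
  -- monotonicity of `If`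
  have hmono : ∀ s ∈ Icc t₀ t₁, If a g t₀ s ≤ B := by
    intro s hs
    refine le_trans ?_ hB
    have h1 : If a g t₀ t₁ - If a g t₀ s = ∫ r in s..t₁, Yf a g r / r := by
      unfold If
      exact intervalIntegral.integral_interval_sub_left (h.int_on ⟨h01, le_rfl⟩) (h.int_on hs)
    have h2 : 0 ≤ ∫ r in s..t₁, Yf a g r / r := by
      refine intervalIntegral.integral_nonneg hs.2 fun r hr => ?_
      exact div_nonneg (Yf_nonneg _ _ _) (h.ht₀.le.trans (hs.1.trans hr.1))
    linarith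
  have hA : ∀ s ∈ Icc t₀ t₁, 0 < max (a s) (g s / 2) := fun s hs =>
    lt_of_lt_of_le (half_pos (h.hg0 s hs)) (le_max_right _ _)
  set β := (R₀ + 1) * Real.exp ((8 + 2 * μ) * B + 9) with hβ
  have hB0 : 0 ≤ B := (h.If_nonneg ⟨h01, le_rfl⟩).trans hB
  have hβ2 : 2 ≤ β := by
    have h1 : 1 ≤ Real.exp ((8 + 2 * μ) * B + 9) := Real.one_le_exp (by positivity)
    have h2 : (R₀ + 1) * 1 ≤ β := mul_le_mul_of_nonneg_left h1 (by linarith)
    linarith
  have hH : ∀ s ∈ Icc t₀ t₁, H s ≤ β * max (a s) (g s / 2) := by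
    intro s hs
    have h1 := h.H_le hR hR0 s hs
    have h4 : (R₀ + 1) * Real.exp ((8 + 2 * μ) * If a g t₀ s + 9 * ε * Real.log (s / t₀)) ≤ β := by
      rw [hβ]
      have h5 := hmono s hs
      have h6 : 9 * ε * Real.log (s / t₀) ≤ 9 := by
        have h7 : Real.log (s / t₀) ≤ Real.log (t₁ / t₀) := by
          refine Real.log_le_log (div_pos (h.ht₀.trans_le hs.1) h.ht₀) ?_
          exact div_le_div_of_nonneg_right hs.2 h.ht₀.le
        have h8 : ε * Real.log (s / t₀) ≤ ε * Real.log (t₁ / t₀) :=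
          mul_le_mul_of_nonneg_left h7 hε.le
        linarith
      gcongr
    have h9 := mul_le_mul_of_nonneg_right h4 (hA s hs).le
    have h10 := hA s hs
    linarith
  refine ⟨hH t ht, ?_⟩
  have h1 := h.growth hβ2 hH t ht
  have h2 : Real.exp (1 / (2 * β) * Real.log (t / t₀))
      ≤ Real.exp ((4 + 2 * μ) * B)
        * Real.exp (-(4 + 2 * μ) * If a g t₀ t + 1 / (2 * β) * Real.log (t / t₀)) := by
    rw [← Real.exp_add]
    refine Real.exp_le_exp.2 ?_
    have := mul_le_mul_of_nonneg_left (hmono t ht) (show 0 ≤ 4 + 2 * μ by linarith)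
    linarith
  have hA0 := hA t₀ ⟨le_rfl, h01⟩
  calc max (a t₀) (g t₀ / 2) * Real.exp (1 / (2 * β) * Real.log (t / t₀))
      ≤ max (a t₀) (g t₀ / 2) * (Real.exp ((4 + 2 * μ) * B)
        * Real.exp (-(4 + 2 * μ) * If a g t₀ t + 1 / (2 * β) * Real.log (t / t₀))) :=
        mul_le_mul_of_nonneg_left h2 hA0.le
    _ = Real.exp ((4 + 2 * μ) * B) * (max (a t₀) (g t₀ / 2)
        * Real.exp (-(4 + 2 * μ) * If a g t₀ t + 1 / (2 * β) * Real.log (t / t₀))) := by ring
    _ ≤ _ := mul_le_mul_of_nonneg_left h1 (Real.exp_pos _).le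

end

end Vale.Agent.P214.NGP
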