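import Vale.Agent.P214.NGP.Final
import Vale.Agent.P214.R2.BoxExh

/-!
# P214, block NGP: link with the interface of the m = 2 assembly

`Yf (aK) (tiltK) ≤ 2 Xn`, the integrated form, and the upper bound of `aK` from `BoxTop`.
-/

open Set Filter Topology MeasureTheory Metric
open scoped RealInnerProductSpace

set_option linter.all false

namespace Vale.Agent.P214.NGP

open Vale.Agent.P214.FV Vale.Agent.P214.ODE Vale.Agent.P214.Skel Vale.Agent.P214.EX
open Vale.Agent.P214.R2 (etaK Xn Xf)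

variable {E : Type*} [NormedAddCommGroup E] [InnerProductSpace ℝ E] [FiniteDimensional ℝ E]
  [MeasurableSpace E] [BorelSpace E]

variable {Q : ℕ} {T : Submodule ℝ E} {G : Set E} {h : ℝ} {ν : Measure E} {P : E → E →L[ℝ] E}
  {x : E} {k k' K : ℝ → ℝ}

/-- the truncated ratio of the path lemma is at most twice the negativity of the exhaustion -/
theorem Yf_le_Xn (hC : CylStat 2 T G h ν P) (hk : Kern k k' K) (h14 : 0 < K (1 / 4))
    (hx : x ∈ T) {r : ℝ} (hr : 0 < r) (hxr : ‖x‖ + r ≤ 2) :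
    Yf (aK 2 T x K ν (Q * R2.cK 2 T K)) (tiltK 2 T x K P ν) r
      ≤ 2 * Xn Q T ν P (etaK K) x r := by
  rw [← R2.Xf_eq_Xn hC hk h14 hr hxr, R2.Xf_eq hC hk h14 hx hr hxr]
  unfold Yf
  set a := aK 2 T x K ν (Q * R2.cK 2 T K) r
  set g := tiltK 2 T x K P ν r
  have e1 : (g - a) / (2 * g) = (g - a) / g / 2 := by rw [div_div, mul_comm 2 g]
  rw [e1]
  set q := (g - a) / g
  rcases le_total 0 q with h0 | h0
  · rw [max_eq_right h0, max_eq_right (by linarith : 0 ≤ q / 2)]
    rcases le_total 1 (q / 2) with h1 | h1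
    · rw [min_eq_left h1]
      exact (min_le_left _ _).trans (by norm_num)
    · rw [min_eq_right h1]
      exact (min_le_right _ _).trans (by linarith)
  · rw [max_eq_left h0, max_eq_left (by linarith : q / 2 ≤ 0)]
    norm_num

lemma Xn_nonneg (η : E → ℝ) (r : ℝ) : 0 ≤ Xn Q T ν P η x r :=
  le_min zero_le_one (le_max_left _ _)

lemma intervalIntegrable_Xn (hC : CylStat 2 T G h ν P) (hk : Kern k k' K) (h14 : 0 < K (1 / 4))
    {s t : ℝ} (hs : 0 < s) (hst : s ≤ t) (hxt : ‖x‖ + t ≤ 2) :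
    IntervalIntegrable (fun r => Xn Q T ν P (etaK K) x r / r) volume s t := by
  haveI := hC.fin
  haveI := R2.isFinite_nuB hC
  haveI := R2.isFinite_lamB (Q := Q) hC
  haveI : IsFiniteMeasure (R2.lamA T ν) := by
    unfold R2.lamA
    infer_instance
  obtain ⟨Kl, hη⟩ := R2.isKernel_etaK (E := E) hk h14
  have h1 : IntervalIntegrable (fun r => Xf 2 Q T ν P K x r / r) volume s t :=
    intervalIntegrable_Xneg' hη x hs (hs.trans_le hst)
  refine h1.congr fun r hr => ?_
  rw [uIoc_of_le hst] at hr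
  show Xf 2 Q T ν P K x r / r = Xn Q T ν P (etaK K) x r / r
  rw [R2.Xf_eq_Xn hC hk h14 (hs.trans hr.1) (by linarith [hr.2])]

/-- **Integrated form.** -/
theorem int_Yf_le (hC : CylStat 2 T G h ν P) (hk : Kern k k' K) (h14 : 0 < K (1 / 4))
    (hx : x ∈ T) {s s₁ t : ℝ} (hs : 0 < s) (hs1 : s ≤ s₁) (hst : s₁ ≤ t) (hxt : ‖x‖ + t ≤ 2) :
    ∫ r in s₁..t, Yf (aK 2 T x K ν (Q * R2.cK 2 T K)) (tiltK 2 T x K P ν) r / r
      ≤ 2 * ∫ r in s..t, Xn Q T ν P (etaK K) x r / r := by
  have hs1' : 0 < s₁ := hs.trans_le hs1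
  have iX := intervalIntegrable_Xn (Q := Q) (x := x) hC hk h14 hs (hs1.trans hst) hxt
  have iX1 : IntervalIntegrable (fun r => Xn Q T ν P (etaK K) x r / r) volume s₁ t :=
    intervalIntegrable_Xn (Q := Q) (x := x) hC hk h14 hs1' hst hxt
  have iX0 : IntervalIntegrable (fun r => Xn Q T ν P (etaK K) x r / r) volume s s₁ :=
    intervalIntegrable_Xn (Q := Q) (x := x) hC hk h14 hs hs1 (by linarith)
  have h0 : 0 ≤ ∫ r in s..s₁, Xn Q T ν P (etaK K) x r / r :=
    intervalIntegral.integral_nonneg hs1 fun r hr =>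
      div_nonneg (Xn_nonneg _ _) (hs.le.trans hr.1)
  have hadd := intervalIntegral.integral_add_adjacent_intervals iX0 iX1
  have h1 : 0 ≤ ∫ r in s₁..t, Xn Q T ν P (etaK K) x r / r :=
    intervalIntegral.integral_nonneg hst fun r hr =>
      div_nonneg (Xn_nonneg _ _) (hs1'.le.trans hr.1)
  by_cases hi : IntervalIntegrable
      (fun r => Yf (aK 2 T x K ν (Q * R2.cK 2 T K)) (tiltK 2 T x K P ν) r / r) volume s₁ t
  · have h2 : ∫ r in s₁..t, Yf (aK 2 T x K ν (Q * R2.cK 2 T K)) (tiltK 2 T x K P ν) r / r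
        ≤ ∫ r in s₁..t, 2 * (Xn Q T ν P (etaK K) x r / r) := by
      refine intervalIntegral.integral_mono_on hst hi (iX1.const_mul 2) fun r hr => ?_
      have hr0 : 0 < r := hs1'.trans_le hr.1
      have h3 := Yf_le_Xn (Q := Q) hC hk h14 hx hr0 (by linarith [hr.2])
      calc Yf (aK 2 T x K ν (Q * R2.cK 2 T K)) (tiltK 2 T x K P ν) r / r
          ≤ (2 * Xn Q T ν P (etaK K) x r) / r := div_le_div_of_nonneg_right h3 hr0.le
        _ = _ := by ring
    rw [intervalIntegral.integral_const_mul] at h2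
    linarith
  · rw [intervalIntegral.integral_undef hi]
    linarith

/-- `tiltK ≤ K 0 · exc` over a ball inside the unit configuration -/
lemma tiltK_le_exc (hC : CylStat 2 T G h ν P) (hk : Kern k k' K) (hx : x ∈ T) {t : ℝ}
    (ht : 0 < t) (hxt : ‖x‖ + t ≤ 2) :
    tiltK 2 T x K P ν t ≤ K 0 * exc T ν P 0 2 := by
  have hpl := CylStat.plane hC
  have hb : ∀ᵐ y ∂ν, |ODE.tilt T P y| ≤ 2 * (Module.finrank ℝ E : ℝ) := hpl.abs_tilt_le
  have i1 := integrable_K (z := x) hC hk ht (aesm_tilt (T := T) hpl.meas) hb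
  unfold tiltK exc
  have e1 : t ^ (2 - ((2:ℕ) : ℤ)) = 1 := by norm_num
  rw [e1, one_mul, ← integral_const_mul,
    ← integral_indicator (R2.measurableSet_cylSet T 0 2)]
  refine integral_mono_ae i1 (((R2.integrable_tilt' hC).const_mul _).indicator
    (R2.measurableSet_cylSet T 0 2)) ?_
  filter_upwards [CylStat.tilt_nonneg hC] with y hy
  have hK0 : K (bsq T x y / t ^ 2) ≤ K 0 :=
    Kern.K_antitone hk (div_nonneg (bsq_nonneg T x y) (sq_nonneg t))
  by_cases hmem : y ∈ cylSet T 0 2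
  · rw [indicator_of_mem hmem, TH.tilt_agree]
    exact mul_le_mul_of_nonneg_right hK0 hy
  · rw [indicator_of_notMem hmem]
    have h2 : (2:ℝ) ≤ ‖T.starProjection y‖ := by
      by_contra hcon
      exact hmem (by rw [cylSet, mem_setOf_eq, mem_ball_zero_iff]; exact not_le.1 hcon)
    have h3 : t ≤ ‖bx T x y‖ := by
      rw [bx_eq, Submodule.starProjection_eq_self_iff.2 hx]
      have := norm_sub_norm_le (T.starProjection y) x
      linarith
    have h4 : K (bsq T x y / t ^ 2) = 0 := by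
      refine hk.pK.zero _ ?_
      rw [one_le_div (by positivity)]
      unfold bsq
      gcongr
    rw [h4, zero_mul]

/-- **Upper bound of the area quantity at the top** from `BoxTop`. -/
theorem aK_le_of_boxTop (hk : Kern k k' K) (h14 : 0 < K (1 / 4)) (htop : R2.BoxTop E Q) :
    ∃ C ε : ℝ, 0 < C ∧ 0 < ε ∧ ∀ (T : Submodule ℝ E) (h : ℝ) (ν : Measure E)
      (P : E → E →L[ℝ] E), IntCyl 2 Q T 0 2 h ε ν P → exc T ν P 0 2 ≤ ε →
      ∀ x ∈ T, ∀ t : ℝ, 0 < t → ‖x‖ + t ≤ 3 / 2 →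
        |aK 2 T x K ν (Q * R2.cK 2 T K) t| ≤ C * exc T ν P 0 2 ∧
        tiltK 2 T x K P ν t ≤ C * exc T ν P 0 2 := by
  obtain ⟨C₀, ε, hC₀, hε, H⟩ := htop
  have hanti : Antitone K := Kern.K_antitone hk
  have hK0 : 0 < K 0 := lt_of_lt_of_le h14 (hanti (by norm_num))
  refine ⟨2 * K 0 * C₀ + K 0, ε, by positivity, hε, ?_⟩
  intro T h ν P hI hexc x hx t ht hxt
  have hC := hI.cyl
  obtain ⟨Kl, hη⟩ := R2.isKernel_etaK (E := E) hk h14
  have he0 : 0 ≤ exc T ν P 0 2 := R2.exc_nonneg hC 0 2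
  have h1 := H T h ν P hI hexc (ker (etaK K) x t) (R2.measurable_ker hk x t)
    (fun y => by rw [abs_of_nonneg (ker_nonneg hη x t y)]; exact ker_le_one hη x t y)
    (fun y hy => by
      unfold EX.ker R2.etaK
      rw [hk.pK.zero, zero_div]
      have h1 : t ≤ ‖y - x‖ := by
        have := norm_sub_norm_le y x
        linarith
      rw [norm_smul, norm_inv, Real.norm_of_nonneg ht.le, mul_pow, inv_pow, inv_mul_eq_div,
        le_div_iff₀ (by positivity), one_mul]
      exact pow_le_pow_left₀ ht.le h1 2)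
  have h2 := R2.Lam_ker (Q := Q) hC hk h14 hx ht (by linarith)
  rw [R2.Lam_eq_Ffl hC (R2.measurable_ker hk x t) (C := 1)
    (fun y => by rw [abs_of_nonneg (ker_nonneg hη x t y)]; exact ker_le_one hη x t y)
    (fun y hy => R2.ker_zero_far hk ht (by linarith) hy)] at h2
  rw [h2] at h1
  have e1 : t ^ (((2:ℕ) : ℤ) - 2) = 1 := by norm_num
  rw [e1] at h1
  set a := aK 2 T x K ν (Q * R2.cK 2 T K) t
  have h3 := tiltK_le_exc hC hk hx ht (by linarith)
  have h4 := CylStat.tiltK_nonneg (z := x) hC hk ht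
  set g := tiltK 2 T x K P ν t
  have h5 : |a - g| ≤ 2 * K 0 * C₀ * exc T ν P 0 2 := by
    have e2 : 1 / K 0 * ((a - g) / 2) = (a - g) / (2 * K 0) := by field_simp
    rw [e2, abs_div, abs_of_pos (show (0:ℝ) < 2 * K 0 by positivity),
      div_le_iff₀ (by positivity)] at h1
    linarith
  constructor
  · have h6 : |a| ≤ |a - g| + |g| := by
      have := abs_add_le (a - g) g
      simpa using this
    rw [abs_of_nonneg h4] at h6
    linarith
  · have : 0 ≤ 2 * K 0 * C₀ * exc T ν P 0 2 := by positivity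
    linarith

end Vale.Agent.P214.NGP
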